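import Mathlib

/-!
Liouville theorem for entire infinity-harmonic functions at bounded distance from a linear function.
Proof: one-sided cone estimate (slope at most one), then one quadratic test function in a
parabolic cylinder, whose top face is controlled by the low values and whose centre is nearly a supremum.
-/

open scoped RealInnerProductSpace Gradient
open Filter Topology

noncomputable section

namespace Vale.Agent.P080

variable {E : Type*} [NormedAddCommGroup E] [InnerProductSpace ℝ E] [FiniteDimensional ℝ E]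

/-- The unnormalized infinity Laplacian at a point. -/
def infLap (φ : E → ℝ) (z : E) : ℝ :=
  fderiv ℝ (fderiv ℝ φ) z (gradient φ z) (gradient φ z)

/-- Viscosity solutions of the infinity Laplace equation on a set. -/
def IsInfHarmonicOn (u : E → ℝ) (Ω : Set E) : Prop :=
  ContinuousOn u Ω ∧ ∀ z ∈ Ω, ∀ φ : E → ℝ, ContDiffAt ℝ 2 φ z →
    (IsLocalMax (fun y => u y - φ y) z → 0 ≤ infLap φ z) ∧
    (IsLocalMin (fun y => u y - φ y) z → infLap φ z ≤ 0)

/-- Compute the infinity Laplacian from the first derivative along the gradient line. -/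
lemma infLap_eq {φ : E → ℝ} {z g : E} {D : ℝ} (hφ : ContDiffAt ℝ 2 φ z)
    (hg : fderiv ℝ φ z = innerSL ℝ g)
    (hD : HasDerivAt (fun t : ℝ => fderiv ℝ φ (z + t • g) g) D 0) : infLap φ z = D := by
  have hgr : gradient φ z = g := by
    apply ext_inner_right ℝ
    intro w
    rw [gradient, InnerProductSpace.toDual_symm_apply, hg, innerSL_apply_apply]
  have h1 : DifferentiableAt ℝ (fderiv ℝ φ) z :=
    (hφ.fderiv_right (m := 1) (le_of_eq (by norm_num))).differentiableAt (by norm_num)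
  have hl : HasDerivAt (fun t : ℝ => z + t • g) g 0 := by
    simpa using ((hasDerivAt_id (0 : ℝ)).smul_const g).const_add z
  have h2 : HasDerivAt (fun t : ℝ => fderiv ℝ φ (z + t • g)) (fderiv ℝ (fderiv ℝ φ) z g) 0 := by
    have h1' : HasFDerivAt (fderiv ℝ φ) (fderiv ℝ (fderiv ℝ φ) z) (z + (0 : ℝ) • g) := by
      simpa using h1.hasFDerivAt
    exact h1'.comp_hasDerivAt 0 hl
  have h3 : HasDerivAt (fun t : ℝ => fderiv ℝ φ (z + t • g) g)
      (fderiv ℝ (fderiv ℝ φ) z g g) 0 :=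
    (ContinuousLinearMap.apply ℝ ℝ g).hasFDerivAt.comp_hasDerivAt 0 h2
  rw [infLap, hgr]
  exact h3.unique hD

/-- Quadratic test function. -/
def quad (x p : E) (α β γ : ℝ) (y : E) : ℝ :=
  α * ⟪p, y - x⟫ - β * ⟪p, y - x⟫ ^ 2 + γ * ‖y - x‖ ^ 2

lemma fderiv_quad (x p y : E) (α β γ : ℝ) : fderiv ℝ (quad x p α β γ) y =
    innerSL ℝ ((α - 2 * β * ⟪p, y - x⟫) • p + (2 * γ) • (y - x)) := by
  have hv : HasFDerivAt (fun y : E => y - x) (ContinuousLinearMap.id ℝ E) y :=
    (hasFDerivAt_id y).sub_const x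
  have hs : HasFDerivAt (fun y : E => ⟪p, y - x⟫) (innerSL ℝ p) y := by
    exact (innerSL ℝ p).hasFDerivAt.comp y hv
  have h := ((hs.const_mul α).sub ((hs.pow 2).const_mul β)).add (hv.norm_sq.const_mul γ)
  refine (h.congr_fderiv ?_).fderiv
  ext w
  simp [inner_add_left, real_inner_smul_left]
  ring

lemma contDiff_quad (x p : E) (α β γ : ℝ) : ContDiff ℝ 2 (quad x p α β γ) := by
  have hv : ContDiff ℝ 2 (fun y : E => y - x) := contDiff_id.sub contDiff_const
  exact ((contDiff_const.mul (contDiff_const.inner ℝ hv)).sub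
    (contDiff_const.mul ((contDiff_const.inner ℝ hv).pow 2))).add
    (contDiff_const.mul (hv.norm_sq ℝ))

lemma infLap_quad (x p y : E) (hp : ‖p‖ = 1) (α β γ : ℝ) :
    infLap (quad x p α β γ) y =
      -(2 * (β - γ)) * (α - 2 * (β - γ) * ⟪p, y - x⟫) ^ 2
        + 8 * γ ^ 3 * (‖y - x‖ ^ 2 - ⟪p, y - x⟫ ^ 2) := by
  set g := (α - 2 * β * ⟪p, y - x⟫) • p + (2 * γ) • (y - x) with hgdef
  have hD : HasDerivAt (fun t : ℝ => fderiv ℝ (quad x p α β γ) (y + t • g) g)
      (2 * γ * ‖g‖ ^ 2 - 2 * β * ⟪p, g⟫ ^ 2) 0 := by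
    have hfun : (fun t : ℝ => fderiv ℝ (quad x p α β γ) (y + t • g) g) = fun t : ℝ =>
        (2 * γ * ‖g‖ ^ 2 - 2 * β * ⟪p, g⟫ ^ 2) * t
          + ((α - 2 * β * ⟪p, y - x⟫) * ⟪p, g⟫ + 2 * γ * ⟪y - x, g⟫) := by
      funext t
      rw [fderiv_quad, innerSL_apply_apply, add_sub_right_comm, inner_add_left,
        real_inner_smul_left, real_inner_smul_left, inner_add_right, inner_add_left,
        real_inner_smul_left, real_inner_smul_right, real_inner_self_eq_norm_sq]
      ring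
    rw [hfun]
    simpa using (((hasDerivAt_id (0 : ℝ)).const_mul
      (2 * γ * ‖g‖ ^ 2 - 2 * β * ⟪p, g⟫ ^ 2)).add_const
      ((α - 2 * β * ⟪p, y - x⟫) * ⟪p, g⟫ + 2 * γ * ⟪y - x, g⟫))
  rw [infLap_eq (contDiff_quad x p α β γ).contDiffAt (fderiv_quad x p y α β γ) hD]
  have hpp : ⟪p, p⟫ = 1 := by rw [real_inner_self_eq_norm_sq, hp]; norm_num
  have hgg : ‖g‖ ^ 2 = (α - 2 * β * ⟪p, y - x⟫) ^ 2
      + 4 * γ * (α - 2 * β * ⟪p, y - x⟫) * ⟪p, y - x⟫ + 4 * γ ^ 2 * ‖y - x‖ ^ 2 := by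
    rw [hgdef, norm_add_sq_real, norm_smul, norm_smul, real_inner_smul_left,
      real_inner_smul_right, hp, mul_pow, mul_pow, Real.norm_eq_abs, Real.norm_eq_abs, sq_abs,
      sq_abs]
    ring
  have hpg : ⟪p, g⟫ = (α - 2 * β * ⟪p, y - x⟫) + 2 * γ * ⟪p, y - x⟫ := by
    rw [hgdef, inner_add_right, real_inner_smul_right, real_inner_smul_right, hpp]
    ring
  rw [hgg, hpg]
  ring

/-- Cone test function with a small concave bend. -/
def cone (x : E) (a b : ℝ) (y : E) : ℝ := a * ‖y - x‖ - b * ‖y - x‖ ^ 2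

lemma contDiffAt_cone {x y : E} (a b : ℝ) (h : y ≠ x) : ContDiffAt ℝ 2 (cone x a b) y := by
  have hv : ContDiffAt ℝ 2 (fun y : E => y - x) y := contDiffAt_id.sub contDiffAt_const
  exact (contDiffAt_const.mul (hv.norm ℝ (sub_ne_zero.2 h))).sub
    (contDiffAt_const.mul (hv.norm_sq ℝ))

lemma fderiv_cone {x y : E} (a b : ℝ) (h : y ≠ x) :
    fderiv ℝ (cone x a b) y = innerSL ℝ ((a / ‖y - x‖ - 2 * b) • (y - x)) := by
  have hr : ‖y - x‖ ≠ 0 := norm_ne_zero_iff.2 (sub_ne_zero.2 h)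
  have hv : HasFDerivAt (fun y : E => y - x) (ContinuousLinearMap.id ℝ E) y :=
    (hasFDerivAt_id y).sub_const x
  have hq := hv.norm_sq
  have hn : HasFDerivAt (fun y : E => ‖y - x‖) ((1 / ‖y - x‖) • innerSL ℝ (y - x)) y := by
    have h1 := hq.sqrt (pow_ne_zero 2 hr)
    refine (h1.congr_fderiv ?_).congr_of_eventuallyEq
      (Eventually.of_forall fun z => (Real.sqrt_sq (norm_nonneg (z - x))).symm)
    ext w
    simp [Real.sqrt_sq (norm_nonneg (y - x))]
    field_simp
  refine (((hn.const_mul a).sub (hq.const_mul b)).congr_fderiv ?_).fderiv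
  ext w
  simp [real_inner_smul_left]
  field_simp

lemma infLap_cone {x y : E} (a b : ℝ) (h : y ≠ x) :
    infLap (cone x a b) y = -(2 * b) * (a - 2 * b * ‖y - x‖) ^ 2 := by
  have hr : 0 < ‖y - x‖ := norm_pos_iff.2 (sub_ne_zero.2 h)
  set r := ‖y - x‖ with hrdef
  set k := a / r - 2 * b with hkdef
  have hD : HasDerivAt (fun t : ℝ => fderiv ℝ (cone x a b) (y + t • k • (y - x)) (k • (y - x)))
      (-(2 * b * k ^ 2 * r ^ 2)) 0 := by
    have hev : (fun t : ℝ => fderiv ℝ (cone x a b) (y + t • k • (y - x)) (k • (y - x)))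
        =ᶠ[𝓝 0] fun t : ℝ => (-(2 * b * k ^ 2 * r ^ 2)) * t + (a * k * r - 2 * b * k * r ^ 2) := by
      have hpos : ∀ᶠ t : ℝ in 𝓝 0, 0 < 1 + t * k := by
        have hc : ContinuousAt (fun t : ℝ => 1 + t * k) 0 := by fun_prop
        exact hc.eventually (lt_mem_nhds (by simp))
      filter_upwards [hpos] with t ht
      have hsub : y + t • k • (y - x) - x = (1 + t * k) • (y - x) := by
        rw [add_sub_right_comm, add_smul, one_smul, smul_smul]
      have hne : y + t • k • (y - x) ≠ x := by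
        intro he
        rw [he, sub_self] at hsub
        rcases smul_eq_zero.1 hsub.symm with h0 | h0
        · linarith
        · exact sub_ne_zero.2 h h0
      rw [fderiv_cone a b hne, hsub, innerSL_apply_apply, real_inner_smul_left,
        real_inner_smul_left, real_inner_smul_right, real_inner_self_eq_norm_sq, norm_smul,
        Real.norm_of_nonneg ht.le, ← hrdef]
      field_simp
      ring
    refine HasDerivAt.congr_of_eventuallyEq ?_ hev
    simpa using (((hasDerivAt_id (0 : ℝ)).const_mul (-(2 * b * k ^ 2 * r ^ 2))).add_const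
      (a * k * r - 2 * b * k * r ^ 2))
  rw [infLap_eq (contDiffAt_cone a b h) (fderiv_cone a b h) hD, hkdef]
  field_simp

variable {u : E → ℝ}

/-- Comparison from above with one bent cone. -/
lemma cone_bound (hu : IsInfHarmonicOn u Set.univ) {x : E} {R a b : ℝ} (hR : 0 < R) (hb : 0 < b)
    (hab : 2 * b * R < a) (hbd : ∀ y, ‖y - x‖ = R → u y - u x ≤ a * R - b * R ^ 2)
    {y : E} (hy : ‖y - x‖ ≤ R) : u y - u x ≤ a * ‖y - x‖ := by
  have hc : Continuous u := continuousOn_univ.1 hu.1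
  have hF : Continuous fun y => u y - cone x a b y := by unfold cone; fun_prop
  obtain ⟨z, hz, hmax⟩ := (isCompact_closedBall x R).exists_isMaxOn
    (Metric.nonempty_closedBall.2 hR.le) hF.continuousOn
  have hle : u y - cone x a b y ≤ u z - cone x a b z :=
    hmax (by rwa [Metric.mem_closedBall, dist_eq_norm])
  have hz' : ‖z - x‖ ≤ R := by rwa [Metric.mem_closedBall, dist_eq_norm] at hz
  have hzx : u z - cone x a b z ≤ u x := by
    rcases eq_or_ne z x with rfl | hne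
    · simp [cone]
    rcases eq_or_lt_of_le hz' with he | hlt
    · have h' := hbd z he
      simp only [cone, he]
      linarith
    · exfalso
      have hloc : IsLocalMax (fun y => u y - cone x a b y) z := by
        refine hmax.isLocalMax (Metric.closedBall_mem_nhds_of_mem ?_)
        rwa [Metric.mem_ball, dist_eq_norm]
      have h0 := ((hu.2 z (Set.mem_univ z) _ (contDiffAt_cone a b hne)).1 hloc)
      rw [infLap_cone a b hne] at h0
      have : 0 < a - 2 * b * ‖z - x‖ := by nlinarith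
      nlinarith [pow_pos this 2]
  have hb2 : 0 ≤ b * ‖y - x‖ ^ 2 := by positivity
  simp only [cone] at hle hzx
  linarith

/-- An entire solution within bounded distance of a linear function of slope at most one has
Lipschitz constant at most one. -/
lemma slope_le_one (hu : IsInfHarmonicOn u Set.univ) {q : E} (hq : ‖q‖ ≤ 1) {M : ℝ}
    (hM : ∀ y, |u y - ⟪q, y⟫| ≤ M) (x y : E) : u y - u x ≤ ‖y - x‖ := by
  have hM0 : 0 ≤ M := (abs_nonneg _).trans (hM 0)
  have hlim : Tendsto (fun R : ℝ => (1 + (4 * M + 1) / R) * ‖y - x‖) atTop (𝓝 ‖y - x‖) := by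
    have h1 : Tendsto (fun R : ℝ => (4 * M + 1) / R) atTop (𝓝 0) :=
      tendsto_const_nhds.div_atTop tendsto_id
    simpa using ((h1.const_add 1).mul_const ‖y - x‖)
  refine ge_of_tendsto hlim ?_
  filter_upwards [eventually_gt_atTop (2 * M + 2 + ‖y - x‖)] with R hR
  have hR0 : 0 < R := by linarith [norm_nonneg (y - x)]
  apply cone_bound hu hR0 (a := 1 + (4 * M + 1) / R) (b := (M + 1) / R ^ 2) (by positivity)
  · have h1 : 2 * ((M + 1) / R ^ 2) * R = (2 * M + 2) / R := by field_simp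
    rw [h1]
    have h2 : (2 * M + 2) / R < 1 := by rw [div_lt_one hR0]; linarith [norm_nonneg (y - x)]
    have h3 : 0 ≤ (4 * M + 1) / R := by positivity
    linarith
  · intro z hz
    have h1 := abs_le.1 (hM z)
    have h2 := abs_le.1 (hM x)
    have h3 : ⟪q, z⟫ - ⟪q, x⟫ ≤ R := by
      rw [← inner_sub_right, ← hz]
      exact (real_inner_le_norm _ _).trans (by nlinarith [norm_nonneg (z - x)])
    have h4 : (1 + (4 * M + 1) / R) * R - (M + 1) / R ^ 2 * R ^ 2 = R + 3 * M := by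
      field_simp; ring
    linarith
  · linarith [norm_nonneg (y - x), hM0]

/-- The parabolic cylinder used in the barrier argument. -/
def cyl (x p : E) (R K : ℝ) : Set E :=
  {y | ⟪p, y - x⟫ ∈ Set.Icc (-R) R ∧ ‖y - x‖ ^ 2 - ⟪p, y - x⟫ ^ 2 ≤ K * R}

lemma isCompact_cyl (x p : E) (R K : ℝ) : IsCompact (cyl x p R K) := by
  have hs : Continuous fun y : E => ⟪p, y - x⟫ :=
    continuous_const.inner (continuous_id.sub continuous_const)
  apply Metric.isCompact_of_isClosed_isBounded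
  · exact (isClosed_Icc.preimage hs).inter (isClosed_le
      (((continuous_id.sub continuous_const).norm.pow 2).sub (hs.pow 2)) continuous_const)
  · refine (Metric.isBounded_closedBall (x := x) (r := 1 + R ^ 2 + |K * R|)).subset ?_
    rintro y ⟨⟨h1, h2⟩, h3⟩
    rw [Metric.mem_closedBall, dist_eq_norm]
    nlinarith [sq_nonneg (‖y - x‖ - 1), le_abs_self (K * R)]

/-- An interior point of the cylinder has the cylinder as a neighbourhood. -/
lemma cyl_mem_nhds {x p z : E} {R K : ℝ} (h1 : ⟪p, z - x⟫ ∈ Set.Ioo (-R) R)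
    (h2 : ‖z - x‖ ^ 2 - ⟪p, z - x⟫ ^ 2 < K * R) : cyl x p R K ∈ 𝓝 z := by
  have hs : Continuous fun y : E => ⟪p, y - x⟫ :=
    continuous_const.inner (continuous_id.sub continuous_const)
  have e1 : ∀ᶠ y in 𝓝 z, ⟪p, y - x⟫ ∈ Set.Ioo (-R) R :=
    hs.continuousAt.eventually (isOpen_Ioo.mem_nhds h1)
  have e2 : ∀ᶠ y in 𝓝 z, ‖y - x‖ ^ 2 - ⟪p, y - x⟫ ^ 2 < K * R :=
    (((continuous_id.sub continuous_const).norm.pow 2).sub (hs.pow 2)).continuousAt.eventually
      (gt_mem_nhds h2)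
  filter_upwards [e1, e2] with y a b
  exact ⟨⟨a.1.le, a.2.le⟩, b.le⟩

/-- Squared transversal distances from two base points compare. -/
lemma transversal_le {p : E} (hp : ‖p‖ = 1) (z x y : E) :
    ‖z - y‖ ^ 2 - ⟪p, z - y⟫ ^ 2 ≤
      2 * (‖z - x‖ ^ 2 - ⟪p, z - x⟫ ^ 2) + 2 * ‖y - x‖ ^ 2 := by
  have key : ∀ v : E, ‖v - ⟪p, v⟫ • p‖ ^ 2 = ‖v‖ ^ 2 - ⟪p, v⟫ ^ 2 := by
    intro v
    rw [norm_sub_sq_real, real_inner_smul_right, norm_smul, hp, Real.norm_eq_abs, mul_one, sq_abs,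
      real_inner_comm v p]
    ring
  rw [← key, ← key]
  have h1 : (z - y) - ⟪p, z - y⟫ • p =
      ((z - x) - ⟪p, z - x⟫ • p) - ((y - x) - ⟪p, y - x⟫ • p) := by
    rw [show z - y = (z - x) - (y - x) by abel, inner_sub_right, sub_smul]
    abel
  rw [h1]
  set v := (z - x) - ⟪p, z - x⟫ • p
  set w := (y - x) - ⟪p, y - x⟫ • p with hw
  have hw2 : ‖w‖ ^ 2 ≤ ‖y - x‖ ^ 2 := by
    rw [hw, key]; nlinarith [sq_nonneg ⟪p, y - x⟫]
  nlinarith [norm_sub_le v w, norm_nonneg v, norm_nonneg w, norm_nonneg (v - w),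
    sq_nonneg (‖v‖ - ‖w‖)]

/-- Forward parabola bound from a low point. -/
lemma forward_bound (hu : IsInfHarmonicOn u Set.univ) {p : E} (hp : ‖p‖ = 1) {M : ℝ}
    (hM : ∀ y, |u y - ⟪p, y⟫| ≤ M) {z y : E} {R : ℝ} (hR : 0 < R)
    (hD : R / 2 ≤ ⟪p, z - y⟫) :
    (u z - ⟪p, z⟫) - (u y - ⟪p, y⟫) ≤ (‖z - y‖ ^ 2 - ⟪p, z - y⟫ ^ 2) / R := by
  have h1 := slope_le_one hu hp.le hM y z
  have h3 : ⟪p, z - y⟫ ≤ ‖z - y‖ := by
    simpa [hp] using real_inner_le_norm p (z - y)
  have h5 : ‖z - y‖ - ⟪p, z - y⟫ ≤ (‖z - y‖ ^ 2 - ⟪p, z - y⟫ ^ 2) / R := by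
    rw [le_div_iff₀ hR]; nlinarith
  have h6 : ⟪p, z - y⟫ = ⟪p, z⟫ - ⟪p, y⟫ := inner_sub_right _ _ _
  linarith

/-- Final sign computation for the barrier. -/
lemma barrier_neg {η R s Q : ℝ} (hη : 0 < η) (hη1 : η ≤ 1 / 100) (hR : 1 ≤ R) (hs : |s| ≤ R)
    (hQ : Q ≤ 60 * η * R) :
    -(2 * (η / R ^ 2)) * ((1 - 3 * η / R) - 2 * (η / R ^ 2) * s) ^ 2
      + 8 * (1 / (10 * R)) ^ 3 * Q < 0 := by
  have hR0 : 0 < R := by linarith
  have hb : 2 * (η / R ^ 2) * s ≤ 2 * η / R := by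
    calc 2 * (η / R ^ 2) * s ≤ 2 * (η / R ^ 2) * R :=
          mul_le_mul_of_nonneg_left ((le_abs_self s).trans hs) (by positivity)
      _ = 2 * η / R := by field_simp
  have h1 : ∀ c : ℝ, 0 ≤ c → c * η / R ≤ c * η := fun c hc =>
    div_le_self (by positivity) hR
  have hA : 9 / 10 ≤ (1 - 3 * η / R) - 2 * (η / R ^ 2) * s := by
    have := h1 3 (by norm_num); have := h1 2 (by norm_num); linarith
  have hA2 : 81 / 100 ≤ ((1 - 3 * η / R) - 2 * (η / R ^ 2) * s) ^ 2 := by nlinarith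
  have h2 : 8 * (1 / (10 * R)) ^ 3 * Q ≤ 8 * (1 / (10 * R)) ^ 3 * (60 * η * R) :=
    mul_le_mul_of_nonneg_left hQ (by positivity)
  have h3 : 8 * (1 / (10 * R)) ^ 3 * (60 * η * R) = (12 / 25) * (η / R ^ 2) := by
    field_simp; ring
  have h4 : 0 < η / R ^ 2 := by positivity
  nlinarith [mul_le_mul_of_nonneg_left hA2 h4.le]

/-- The unit-slope case: the deviation from the linear function is constant. -/
lemma unit_case (hu : IsInfHarmonicOn u Set.univ) {p : E} (hp : ‖p‖ = 1) {M : ℝ}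
    (hM : ∀ y, |u y - ⟪p, y⟫| ≤ M) : ∃ c, ∀ y, u y = ⟪p, y⟫ + c := by
  have hc : Continuous u := continuousOn_univ.1 hu.1
  set W : E → ℝ := fun y => u y - ⟪p, y⟫ with hW
  have hbA : BddAbove (Set.range W) := ⟨M, by rintro _ ⟨y, rfl⟩; exact (abs_le.1 (hM y)).2⟩
  have hbB : BddBelow (Set.range W) := ⟨-M, by rintro _ ⟨y, rfl⟩; exact (abs_le.1 (hM y)).1⟩
  set m := ⨆ y, W y with hm
  set l := ⨅ y, W y with hl
  have hWm : ∀ y, W y ≤ m := fun y => le_ciSup hbA y
  have hlW : ∀ y, l ≤ W y := fun y => ciInf_le hbB y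
  suffices hml : m ≤ l by
    refine ⟨m, fun y => ?_⟩
    have h1 := hWm y
    have h2 := hlW y
    simp only [hW] at h1 h2
    linarith
  by_contra hcon
  obtain ⟨η, hη⟩ : ∃ η, η = min (1 / 100) ((m - l) / 200) := ⟨_, rfl⟩
  have hη0 : 0 < η := by rw [hη]; exact lt_min (by norm_num) (by linarith [not_le.1 hcon])
  have hη1 : η ≤ 1 / 100 := hη ▸ min_le_left _ _
  have hη2 : η ≤ (m - l) / 200 := hη ▸ min_le_right _ _
  obtain ⟨xh, hxh⟩ : ∃ xh, m - η < W xh := exists_lt_of_lt_ciSup (by linarith)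
  obtain ⟨xl, hxl⟩ : ∃ xl, W xl < l + η := exists_lt_of_ciInf_lt (by linarith)
  set sl := ⟪p, xl - xh⟫ with hsl
  set dl := ‖xl - xh‖ with hdl
  have hsd : |sl| ≤ dl := by
    simpa [hp] using abs_real_inner_le_norm p (xl - xh)
  set K := 60 * η with hK
  set P := dl ^ 2 with hP
  obtain ⟨R, hR⟩ : ∃ R, R = 1 + 2 * dl + P / η := ⟨_, rfl⟩
  have hR1 : 1 ≤ R := by rw [hR]; have : 0 ≤ P / η := by positivity
                         linarith [norm_nonneg (xl - xh)]
  have hR0 : 0 < R := by linarith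
  have hRd : 2 * dl ≤ R := by rw [hR]; have : 0 ≤ P / η := by positivity
                              linarith
  have hRP : P ≤ η * R := by
    rw [hR, mul_add, mul_div_cancel₀ _ hη0.ne']
    have : 0 ≤ η * (1 + 2 * dl) := by positivity
    linarith
  set α := 1 - 3 * η / R with hα
  set γ := 1 / (10 * R) with hγ
  set β := η / R ^ 2 + γ with hβ
  have hmem : xh ∈ cyl xh p R K := by
    refine ⟨by simp [hR0.le], ?_⟩
    simp only [sub_self, inner_zero_right, norm_zero]
    have : 0 ≤ K * R := by positivity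
    linarith
  have hF : Continuous fun y => u y - quad xh p α β γ y :=
    hc.sub (contDiff_quad xh p α β γ).continuous
  obtain ⟨z, hz, hmax⟩ := (isCompact_cyl xh p R K).exists_isMaxOn ⟨xh, hmem⟩ hF.continuousOn
  have hle : u xh ≤ u z - quad xh p α β γ z := by
    have h := hmax hmem
    simp [quad] at h
    exact h
  obtain ⟨⟨hs1, hs2⟩, hQ2⟩ := hz
  obtain ⟨s, hs⟩ : ∃ s, s = ⟪p, z - xh⟫ := ⟨_, rfl⟩
  obtain ⟨Q, hQ⟩ : ∃ Q, Q = ‖z - xh‖ ^ 2 - s ^ 2 := ⟨_, rfl⟩
  rw [← hs] at hs1 hs2 hQ2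
  rw [← hQ] at hQ2
  have hQ0 : 0 ≤ Q := by
    have h' := abs_real_inner_le_norm p (z - xh)
    rw [hp, one_mul, ← hs] at h'
    have := pow_le_pow_left₀ (abs_nonneg s) h' 2
    rw [sq_abs] at this
    linarith
  have hval : m - η < W z + 3 * η * (s / R) + η * (s / R) ^ 2 - Q / (10 * R) := by
    have h1 : quad xh p α β γ z = s - 3 * η * (s / R) - η * (s / R) ^ 2 + Q / (10 * R) := by
      simp only [quad, ← hs, hα, hβ, hγ, hQ]
      field_simp
      ring
    have h2 : W z = u z - ⟪p, z⟫ := rfl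
    have h3 : W xh = u xh - ⟪p, xh⟫ := rfl
    have h4 : s = ⟪p, z⟫ - ⟪p, xh⟫ := hs.trans (inner_sub_right _ _ _)
    linarith [hxh]
  have hsR1 : s / R ≤ 1 := (div_le_one hR0).2 hs2
  have hsR2 : -1 ≤ s / R := by rw [le_div_iff₀ hR0]; linarith
  have hsR : (s / R) ^ 2 ≤ 1 := (sq_le_one_iff_abs_le_one _).2 (abs_le.2 ⟨hsR2, hsR1⟩)
  have hsR' : η * (s / R) ^ 2 ≤ η := mul_le_of_le_one_right hη0.le hsR
  have hsR'' : 3 * η * (s / R) ≤ 3 * η := mul_le_of_le_one_right (by positivity) hsR1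
  have hQp : 0 ≤ Q / (10 * R) := by positivity
  have hnot1 : s ≠ -R := by
    intro he
    have hd : s / R = -1 := by rw [he]; field_simp
    rw [hd] at hval
    linarith [hWm z]
  have hnot3 : Q < K * R := by
    refine lt_of_le_of_ne hQ2 fun he => ?_
    have hd : Q / (10 * R) = 6 * η := by rw [he, hK]; field_simp; ring
    linarith [hWm z]
  have hnot2 : s ≠ R := by
    intro he
    have hst : ⟪p, z - xl⟫ = R - sl := by
      rw [hsl, ← he, hs, ← inner_sub_right]; congr 1; abel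
    have hD : R / 2 ≤ ⟪p, z - xl⟫ := by
      rw [hst]; have := (abs_le.1 hsd).2; linarith
    have h1 := forward_bound hu hp hM hR0 hD
    have h2 := transversal_le hp z xh xl
    rw [← hs, ← hQ, ← hdl, ← hP] at h2
    have h3 : (‖z - xl‖ ^ 2 - ⟪p, z - xl⟫ ^ 2) / R ≤ 122 * η := by
      rw [div_le_iff₀ hR0]
      have : K * R = 60 * η * R := by rw [hK]
      linarith
    simp only [hW] at hval hxl
    linarith
  have hloc : IsLocalMax (fun y => u y - quad xh p α β γ y) z := by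
    refine hmax.isLocalMax (cyl_mem_nhds ?_ ?_)
    · rw [← hs]; exact ⟨lt_of_le_of_ne hs1 (Ne.symm hnot1), lt_of_le_of_ne hs2 hnot2⟩
    · rw [← hs, ← hQ]; exact hnot3
  have h0 := (hu.2 z (Set.mem_univ z) _ (contDiff_quad xh p α β γ).contDiffAt).1 hloc
  rw [infLap_quad xh p z hp, ← hs, ← hQ] at h0
  simp only [hβ, hγ, hα, add_sub_cancel_right] at h0
  exact absurd h0 (not_le.2 (barrier_neg hη0 hη1 hR1 (abs_le.2 ⟨hs1, hs2⟩)
    (by rw [hK] at hQ2; exact hQ2)))

/-- Scaling invariance of the viscosity inequalities. -/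
lemma smul_isInfHarmonic (hu : IsInfHarmonicOn u Set.univ) {c : ℝ} (hc : 0 < c) :
    IsInfHarmonicOn (fun y => c * u y) Set.univ := by
  refine ⟨continuousOn_const.mul hu.1, fun z hz φ hφ => ?_⟩
  have hψ : ContDiffAt ℝ 2 (fun y => c⁻¹ * φ y) z := contDiffAt_const.mul hφ
  have heq : (fun y => c * u y - φ y) = fun y => c * (u y - c⁻¹ * φ y) := by
    funext y; field_simp
  have hlap : infLap (fun y => c⁻¹ * φ y) z = c⁻¹ ^ 3 * infLap φ z := by
    have hd : fderiv ℝ (fun y => c⁻¹ * φ y) =ᶠ[𝓝 z] fun y => c⁻¹ • fderiv ℝ φ y := by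
      filter_upwards [(hφ.eventually (by norm_num))] with y hy
      exact fderiv_const_mul (hy.differentiableAt (by norm_num)) _
    have h1 : DifferentiableAt ℝ (fderiv ℝ φ) z :=
      (hφ.fderiv_right (m := 1) (le_of_eq (by norm_num))).differentiableAt (by norm_num)
    have hg : gradient (fun y => c⁻¹ * φ y) z = c⁻¹ • gradient φ z := by
      simp only [gradient]; rw [hd.self_of_nhds]; simp
    rw [infLap, infLap, hd.fderiv_eq, fderiv_fun_const_smul h1, hg]
    simp; ring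
  obtain ⟨h1, h2⟩ := hu.2 z hz _ hψ
  have hpos : (0 : ℝ) < c⁻¹ ^ 3 := by positivity
  constructor
  · intro hm
    have hm' : IsLocalMax (fun y => u y - c⁻¹ * φ y) z := by
      rw [heq] at hm
      exact hm.mono fun y hy => le_of_mul_le_mul_left hy hc
    have := h1 hm'
    rw [hlap] at this
    exact nonneg_of_mul_nonneg_right this hpos
  · intro hm
    have hm' : IsLocalMin (fun y => u y - c⁻¹ * φ y) z := by
      rw [heq] at hm
      exact hm.mono fun y hy => le_of_mul_le_mul_left hy hc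
    have := h2 hm'
    rw [hlap] at this
    exact nonpos_of_mul_nonpos_right this hpos

/-- Liouville theorem: an entire infinity-harmonic function at bounded distance from an affine
function is affine. -/
theorem liouville (hu : IsInfHarmonicOn u Set.univ) {p : E} {M : ℝ}
    (hM : ∀ y, |u y - ⟪p, y⟫| ≤ M) : ∃ c, ∀ y, u y = ⟪p, y⟫ + c := by
  rcases eq_or_ne p 0 with rfl | hp
  · refine ⟨u 0, fun y => ?_⟩
    simp only [inner_zero_left, zero_add]
    have key : ∀ n : ℕ, |((n : ℝ) + 1) * (u y - u 0)| ≤ ‖y‖ := by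
      intro n
      have hn : (0 : ℝ) < (n : ℝ) + 1 := by positivity
      have hM' : ∀ w, |((n : ℝ) + 1) * u w - ⟪(0 : E), w⟫| ≤ ((n : ℝ) + 1) * M := by
        intro w
        simpa [abs_mul, abs_of_pos hn] using
          mul_le_mul_of_nonneg_left (hM w) hn.le
      have h0 : ‖(0 : E)‖ ≤ 1 := by simp
      have h1 := slope_le_one (smul_isInfHarmonic hu hn) h0 hM' 0 y
      have h2 := slope_le_one (smul_isInfHarmonic hu hn) h0 hM' y 0
      simp only [sub_zero, zero_sub, norm_neg] at h1 h2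
      rw [abs_le]; constructor <;> linarith
    by_contra hne
    have hpos : 0 < |u y - u 0| := abs_pos.2 (sub_ne_zero.2 hne)
    obtain ⟨n, hn⟩ := exists_nat_gt (‖y‖ / |u y - u 0|)
    rw [div_lt_iff₀ hpos] at hn
    have h := key n
    rw [abs_mul, abs_of_pos (show (0 : ℝ) < (n : ℝ) + 1 by positivity)] at h
    linarith
  · have hn : 0 < ‖p‖ := norm_pos_iff.2 hp
    have h1 : ‖‖p‖⁻¹ • p‖ = 1 := norm_smul_inv_norm hp
    have hM' : ∀ y, |‖p‖⁻¹ * u y - ⟪‖p‖⁻¹ • p, y⟫| ≤ ‖p‖⁻¹ * M := by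
      intro y
      rw [real_inner_smul_left, ← mul_sub, abs_mul, abs_of_pos (inv_pos.2 hn)]
      exact mul_le_mul_of_nonneg_left (hM y) (inv_pos.2 hn).le
    obtain ⟨c, hc⟩ := unit_case (smul_isInfHarmonic hu (inv_pos.2 hn)) h1 hM'
    refine ⟨‖p‖ * c, fun y => ?_⟩
    have h2 := hc y
    rw [real_inner_smul_left] at h2
    field_simp at h2
    linarith

end Vale.Agent.P080
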